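import Vale.Agent.P095.MathlibUsed

/-! C*-algebras which need not be unital: cocycle conjugacy and tensor products. -/

open scoped MultiplierAlgebra TensorProduct

namespace Vale.Agent.P095K

universe u w

/-- The actions `α` and `β` are cocycle conjugate: there are a star-isomorphism `Φ : A → B` and
unitaries `u_g` of the multiplier algebra of `B` with `u_{gh} = u_g β_g(u_h)`, that is,
`u_{gh} β_g(b) = u_g β_g(u_h b)` for all `b` in `B`, and `Φ(α_g(a)) = u_g β_g(Φ(a)) u_g^*`. Here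
`x.fst b` is Mathlib's notation for the product `x b` of a multiplier `x` and an element `b`. -/
structure IsCocycleConj {A B : Type u} [NonUnitalCStarAlgebra A] [NonUnitalCStarAlgebra B]
    {G : Type w} [Group G] (α : G →* (A ≃⋆ₐ[ℂ] A)) (β : G →* (B ≃⋆ₐ[ℂ] B)) : Prop where
  conj : ∃ (Φ : A ≃⋆ₐ[ℂ] B) (u : G → 𝓜(ℂ, B)), (∀ g, u g ∈ unitary 𝓜(ℂ, B)) ∧
    (∀ g h b, (u (g * h)).fst (β g b) = (u g).fst (β g ((u h).fst b))) ∧
    ∀ g a, ((Φ (α g a) : B) : 𝓜(ℂ, B)) = u g * ((β g (Φ a) : B) : 𝓜(ℂ, B)) * star (u g)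

/-- `B` is, via `(a, z) ↦ T a z`, a C*-completion of the algebraic tensor product `A ⊗ Z`. -/
structure IsTensorProd {A Z B : Type u} [NonUnitalCStarAlgebra A] [CStarAlgebra Z]
    [NonUnitalCStarAlgebra B] (T : A →ₗ[ℂ] Z →ₗ[ℂ] B) : Prop where
  map_mul : ∀ a a' z z', T (a * a') (z * z') = T a z * T a' z'
  map_star : ∀ a z, T (star a) (star z) = star (T a z)
  injective : Function.Injective (TensorProduct.lift T)
  dense : DenseRange (TensorProduct.lift T)

end Vale.Agent.P095K
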